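import Vale.Agent.Lib.P154.TM.Tab
import Vale.Agent.Lib.P154.TM.Row

namespace Vale.Agent.Lib.P154.TM.Cert.T405

open Vale.Agent.Lib.P154.TM

theorem n00000000000000000 : NearOK 1 512 hBox tabU 18014398509481984 54 18014398509481984 54 466933209365773025 53 :=
  cellT_sound (by norm_num) .sk 18014398509481984 54 18014398509481984 54 466933209365773025 53 (by decide +kernel)

theorem n000000000000000010000 : NearOK 1 512 hBox tabU 4503599627370496 52 45035996273704960 53 462429609738402529 52 :=
  cellT_sound (by norm_num) (.nd (.nd (.nd .lf .lf) (.nd .lf .lf)) .lf) 4503599627370496 52 45035996273704960 53 462429609738402529 52 (by decide +kernel)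

theorem n000000000000000010001 : NearOK 1 512 hBox tabU 13510798882111488 52 45035996273704960 53 462429609738402529 52 :=
  cellT_sound (by norm_num) (.nd .lf .lf) 13510798882111488 52 45035996273704960 53 462429609738402529 52 (by decide +kernel)

theorem n000000000000000010010 : NearOK 1 512 hBox tabU 4503599627370496 52 45035996273704960 53 471436808993143521 52 :=
  cellT_sound (by norm_num) (.nd (.nd (.nd .lf .lf) (.nd .lf .lf)) .lf) 4503599627370496 52 45035996273704960 53 471436808993143521 52 (by decide +kernel)

theorem n000000000000000010011 : NearOK 1 512 hBox tabU 13510798882111488 52 45035996273704960 53 471436808993143521 52 :=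
  cellT_sound (by norm_num) (.nd .lf .lf) 13510798882111488 52 45035996273704960 53 471436808993143521 52 (by decide +kernel)

theorem n0000000000000000101 : NearOK 1 512 hBox tabU 9007199254740992 53 63050394783186944 53 466933209365773025 53 :=
  cellT_sound (by norm_num) (.nd (.nd (.nd .lf .lf) .lf) (.nd (.nd .lf .lf) .lf)) 9007199254740992 53 63050394783186944 53 466933209365773025 53 (by decide +kernel)

theorem n00000000000000001100 : NearOK 1 512 hBox tabU 27021597764222976 53 45035996273704960 53 462429609738402529 52 :=
  cellT_sound (by norm_num) (.nd (.nd .lf .lf) (.nd .lf .lf)) 27021597764222976 53 45035996273704960 53 462429609738402529 52 (by decide +kernel)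

theorem n00000000000000001101 : NearOK 1 512 hBox tabU 27021597764222976 53 45035996273704960 53 471436808993143521 52 :=
  cellT_sound (by norm_num) (.nd (.nd .lf .lf) (.nd .lf .lf)) 27021597764222976 53 45035996273704960 53 471436808993143521 52 (by decide +kernel)

theorem n0000000000000000111 : NearOK 1 512 hBox tabU 27021597764222976 53 63050394783186944 53 466933209365773025 53 :=
  cellT_sound (by norm_num) (.nd (.nd .lf .lf) (.nd .lf .lf)) 27021597764222976 53 63050394783186944 53 466933209365773025 53 (by decide +kernel)

theorem n000000000000000100000 : NearOK 1 512 hBox tabU 40532396646334464 52 9007199254740992 53 462429609738402529 52 :=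
  cellT_sound (by norm_num) (.nd (.nd (.nd .lf .lf) (.nd .lf .lf)) .lf) 40532396646334464 52 9007199254740992 53 462429609738402529 52 (by decide +kernel)

theorem n000000000000000100001 : NearOK 1 512 hBox tabU 49539595901075456 52 9007199254740992 53 462429609738402529 52 :=
  cellT_sound (by norm_num) (.nd .lf .lf) 49539595901075456 52 9007199254740992 53 462429609738402529 52 (by decide +kernel)

theorem n000000000000000100010 : NearOK 1 512 hBox tabU 40532396646334464 52 9007199254740992 53 471436808993143521 52 :=
  cellT_sound (by norm_num) (.nd (.nd (.nd .lf .lf) (.nd .lf .lf)) .lf) 40532396646334464 52 9007199254740992 53 471436808993143521 52 (by decide +kernel)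

theorem n000000000000000100011 : NearOK 1 512 hBox tabU 49539595901075456 52 9007199254740992 53 471436808993143521 52 :=
  cellT_sound (by norm_num) (.nd .lf .lf) 49539595901075456 52 9007199254740992 53 471436808993143521 52 (by decide +kernel)

theorem n00000000000000010010 : NearOK 1 512 hBox tabU 45035996273704960 53 27021597764222976 53 462429609738402529 52 :=
  cellT_sound (by norm_num) (.nd (.nd .lf .lf) (.nd .lf .lf)) 45035996273704960 53 27021597764222976 53 462429609738402529 52 (by decide +kernel)

theorem n00000000000000010011 : NearOK 1 512 hBox tabU 45035996273704960 53 27021597764222976 53 471436808993143521 52 :=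
  cellT_sound (by norm_num) (.nd (.nd .lf .lf) (.nd .lf .lf)) 45035996273704960 53 27021597764222976 53 471436808993143521 52 (by decide +kernel)

theorem n0000000000000001010 : NearOK 1 512 hBox tabU 63050394783186944 53 9007199254740992 53 466933209365773025 53 :=
  cellT_sound (by norm_num) (.nd (.nd (.nd .lf .lf) .lf) (.nd (.nd .lf .lf) .lf)) 63050394783186944 53 9007199254740992 53 466933209365773025 53 (by decide +kernel)

end Vale.Agent.Lib.P154.TM.Cert.T405
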